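import Vale.Agent.P366W19.Fin

/-!
# P366: the spacetime Penrose inequality with the equality case, for literal enclosing cuts
-/

open Manifold
open scoped ContDiff
open Vale.Agent.P366 Vale.Agent.P366N

namespace Vale.Agent.Results.P366.AAAAAALiteralCuts

/-- The spacetime Penrose inequality with the sharp constant in every dimension `n = k + 1 ≥ 3`,
and its equality case. Enclosing cuts are boundaries of submanifolds with boundary, and their
areas are the Riemannian areas of the induced metric. -/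
theorem result (k : ℕ) (hk : 2 ≤ k) (Ω : Type) [TopologicalSpace Ω] [T2Space Ω]
    [ConnectedSpace Ω] [ChartedSpace (EuclideanHalfSpace (k + 1)) Ω] [IsManifold (𝓡∂ (k + 1)) ∞ Ω]
    [MeasurableSpace Ω] [BorelSpace Ω] (D : St.Data (k + 1) Ω) (hAF : D.IsAF) (hDEC : D.DEC)
    (hT : D.Trapped) :
    (D.IsL1 → ∃ m P, D.IsEnergy m ∧ D.IsMomentum P) ∧
      ∀ (m : ℝ) (P : Fin (k + 1) → ℝ), D.IsEnergy m → D.IsMomentum P →
        D.Acut ≠ ⊤ ∧ √(∑ i, P i ^ 2) < m ∧
          (D.Acut.toReal / Stmt.omega (k + 1)) ^ (((k : ℝ) - 1) / k) / 2 ≤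
            √(m ^ 2 - ∑ i, P i ^ 2) ∧
          (D.Marginal → D.Outer →
            (D.Acut.toReal / Stmt.omega (k + 1)) ^ (((k : ℝ) - 1) / k) / 2 =
              √(m ^ 2 - ∑ i, P i ^ 2) → D.IsSlice √(m ^ 2 - ∑ i, P i ^ 2)) :=
  ⟨D.adm (by omega) hAF, Vale.Agent.P366W19.final k hk Ω D hAF hDEC hT⟩

end Vale.Agent.Results.P366.AAAAAALiteralCuts
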