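import Vale.Agent.P366F.Main

/-!
# P366: the spacetime Penrose inequality with the equality case
-/

open Manifold
open scoped ContDiff
open Vale.Agent.P366 Vale.Agent.P366N

namespace Vale.Agent.Results.P366.AAAAAEquality

/-- The spacetime Penrose inequality with the sharp constant in every dimension `n ≥ 3`, and its
equality case. -/
theorem result (n : ℕ) [NeZero n] (hn : 3 ≤ n) (Ω : Type) [TopologicalSpace Ω] [T2Space Ω]
    [ConnectedSpace Ω] [ChartedSpace (EuclideanHalfSpace n) Ω] [IsManifold (𝓡∂ n) ∞ Ω]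
    [MeasurableSpace Ω] [BorelSpace Ω] (D : St.Data n Ω) (hAF : D.IsAF) (hDEC : D.DEC)
    (hT : D.Trapped) :
    (D.IsL1 → ∃ m P, D.IsEnergy m ∧ D.IsMomentum P) ∧
      ∀ (m : ℝ) (P : Fin n → ℝ), D.IsEnergy m → D.IsMomentum P →
        D.Amin ≠ ⊤ ∧ √(∑ i, P i ^ 2) < m ∧
          (D.Amin.toReal / Stmt.omega n) ^ (((n : ℝ) - 2) / (n - 1)) / 2 ≤
            √(m ^ 2 - ∑ i, P i ^ 2) ∧
          (D.Marginal → D.Outermost →
            (D.Amin.toReal / Stmt.omega n) ^ (((n : ℝ) - 2) / (n - 1)) / 2 =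
              √(m ^ 2 - ∑ i, P i ^ 2) → D.IsSlice √(m ^ 2 - ∑ i, P i ^ 2)) :=
  have h := Vale.Agent.P366M.Top.final n Ω D hn hAF hDEC hT
  ⟨h.1, fun m P hm hP => ⟨(h.2 m P hm hP).1, (h.2 m P hm hP).2.1, (h.2 m P hm hP).2.2,
    fun h1 h2 h3 => Vale.Agent.P366F.eq n Ω D m P hn hAF hDEC h1 h2 hm hP h3⟩⟩

end Vale.Agent.Results.P366.AAAAAEquality
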